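import Mathlib

/-!
# P141, line (A), gap part: the numbers of the engine for regions 1 and 3

All inputs are upper bounds by monomials in three units: `T` (cap unit, `t s^(1/4)`), `M` (mass
unit, `s 8^K`) and `q` (gain unit, `t / r`, at most `1`).  The parameters of the engine and the
numbers of levels are chosen here; the right side of the engine is at most `C 4^L T M q^m`.
-/

namespace Vale.Agent.P141.H775

open Real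

/-- number of levels -/
theorem lvl {E C1 ε : ℝ} (hE : 0 ≤ E) (hC1 : 1 ≤ C1) (hε : 0 < ε) :
    ∃ C : ℝ, 0 ≤ C ∧ ∀ q : ℝ, 0 < q → q ≤ 1 → ∃ n : ℕ,
      C1 * q ^ (-E) / 2 ^ (n - 1) < 1 ∧ (n : ℝ) ≤ C * q ^ (-ε) := by
  have hl : 0 ≤ Real.log C1 := Real.log_nonneg hC1
  refine ⟨2 * Real.log C1 + 2 * (E / ε) + 2, by positivity, fun q hq hq1 => ?_⟩
  have hqe : 1 ≤ q ^ (-ε) := Real.one_le_rpow_of_pos_of_le_one_of_nonpos hq hq1 (by linarith)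
  have hqi : 0 < q⁻¹ := inv_pos.2 hq
  have hlog : Real.log q⁻¹ ≤ q ^ (-ε) / ε := by
    have h := Real.log_le_rpow_div hqi.le hε
    rwa [Real.inv_rpow hq.le, ← Real.rpow_neg hq.le] at h
  set y : ℝ := Real.log C1 + E * Real.log q⁻¹ with hy
  have hlq : 0 ≤ Real.log q⁻¹ := Real.log_nonneg ((one_le_inv₀ hq).2 hq1)
  have hy0 : 0 ≤ y := by positivity
  have hx : C1 * q ^ (-E) = Real.exp y := by
    rw [hy, Real.exp_add, Real.exp_log (by linarith), mul_comm E, ← Real.rpow_def_of_pos hqi,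
      Real.inv_rpow hq.le, ← Real.rpow_neg hq.le]
  refine ⟨⌊2 * y⌋₊ + 2, ?_, ?_⟩
  · rw [div_lt_one (by positivity), hx]
    have h1 : ⌊2 * y⌋₊ + 2 - 1 = ⌊2 * y⌋₊ + 1 := by omega
    rw [h1]
    have h2 : 2 * y < (⌊2 * y⌋₊ : ℝ) + 1 := Nat.lt_floor_add_one _
    have h3 : Real.exp y < Real.exp ((⌊2 * y⌋₊ + 1 : ℝ) * Real.log 2) := by
      rw [Real.exp_lt_exp]
      have h4 : (1 / 2 : ℝ) < Real.log 2 := by linarith [Real.log_two_gt_d9]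
      nlinarith
    refine h3.trans_le (le_of_eq ?_)
    rw [mul_comm, ← Real.rpow_def_of_pos (by norm_num : (0 : ℝ) < 2),
      show (⌊2 * y⌋₊ + 1 : ℝ) = ((⌊2 * y⌋₊ + 1 : ℕ) : ℝ) by push_cast; ring, Real.rpow_natCast]
  · push_cast
    have h1 : (⌊2 * y⌋₊ : ℝ) ≤ 2 * y := Nat.floor_le (by positivity)
    have h2 : E * Real.log q⁻¹ ≤ E * (q ^ (-ε) / ε) := mul_le_mul_of_nonneg_left hlog hE
    have h3 : E * (q ^ (-ε) / ε) = E / ε * q ^ (-ε) := by ring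
    nlinarith

section pure

variable {C0 T M p U cP cA sC GA DA DC D Q v w κ Y x : ℝ}

theorem nz_gd (hC0 : 1 ≤ C0) (hT : 0 < T) (hM : 0 < M) (hp : 0 < p) (hDC : 0 ≤ DC)
    (hGA' : GA ≤ C0 * (T ^ 2 * M) * (p ^ 2)⁻¹) (hDC' : DC ≤ C0 * M * (p ^ 2)⁻¹) :
    √(GA * DC) ≤ C0 * (T * M) * (p ^ 2)⁻¹ := by
  have hC0' : 0 < C0 := by linarith
  refine Real.sqrt_le_iff.2 ⟨by positivity, ?_⟩
  calc GA * DC ≤ (C0 * (T ^ 2 * M) * (p ^ 2)⁻¹) * (C0 * M * (p ^ 2)⁻¹) :=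
        mul_le_mul hGA' hDC' hDC (by positivity)
    _ = (C0 * (T * M) * (p ^ 2)⁻¹) ^ 2 := by ring

theorem nz_i18 : (p ^ 18)⁻¹ = (p ^ 2)⁻¹ * (p ^ 16)⁻¹ := by rw [← mul_inv, ← pow_add]

theorem nz_max1 (hC0 : 1 ≤ C0) (hT : 0 < T) (hM : 0 < M) (hp : 0 < p) (hp1 : p ≤ 1)
    (hs0 : 0 < sC) (he : T * p ^ 16 < sC) (hG : x ≤ C0 * (T * M) * (p ^ 2)⁻¹) :
    x / sC * (T * (sC + T)) ≤ 2 * C0 ^ 2 * (T ^ 2 * M) * (p ^ 18)⁻¹ := by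
  have hC0' : 0 < C0 := by linarith
  have hi16 : 1 ≤ (p ^ 16)⁻¹ := (one_le_inv₀ (by positivity)).2 (pow_le_one₀ hp.le hp1)
  have h1 : T / sC ≤ (p ^ 16)⁻¹ := by
    rw [div_le_iff₀ hs0, ← div_eq_inv_mul, le_div_iff₀ (by positivity)]
    exact he.le
  have h2 : 0 < T / sC := by positivity
  have h3 : C0 ≤ C0 ^ 2 := by
    rw [pow_two]
    exact le_mul_of_one_le_left hC0'.le hC0
  calc x / sC * (T * (sC + T)) = x * T * (1 + T / sC) := by field_simp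
    _ ≤ C0 * (T * M) * (p ^ 2)⁻¹ * T * ((p ^ 16)⁻¹ + (p ^ 16)⁻¹) := by gcongr
    _ = 2 * C0 * (T ^ 2 * M) * ((p ^ 2)⁻¹ * (p ^ 16)⁻¹) := by ring
    _ ≤ 2 * C0 ^ 2 * (T ^ 2 * M) * ((p ^ 2)⁻¹ * (p ^ 16)⁻¹) := by gcongr
    _ = 2 * C0 ^ 2 * (T ^ 2 * M) * (p ^ 18)⁻¹ := by rw [nz_i18]

theorem nz_max2 (hC0 : 1 ≤ C0) (hT : 0 < T) (hM : 0 < M) (hp : 0 < p) (hp1 : p ≤ 1)
    (hcA : 0 < cA) (hcA' : cA ≤ C0 * T * (p ^ 16)⁻¹) (hDC : 0 ≤ DC)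
    (hDC' : DC ≤ C0 * M * (p ^ 2)⁻¹) (hs0 : 0 < sC) (hY1 : Y ≤ DC) (hY2 : Y ≤ (cA / sC) ^ 2 * DC) :
    Y * (T * (sC + T)) ≤ 2 * C0 ^ 2 * (T ^ 2 * M) * (p ^ 18)⁻¹ := by
  have hC0' : 0 < C0 := by linarith
  have hi16 : 1 ≤ (p ^ 16)⁻¹ := (one_le_inv₀ (by positivity)).2 (pow_le_one₀ hp.le hp1)
  have hTs : 0 < T * (sC + T) := by positivity
  have h3 : C0 ≤ C0 ^ 2 := by
    rw [pow_two]
    exact le_mul_of_one_le_left hC0'.le hC0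
  have hY3 : Y ≤ cA / sC * DC := by
    rcases le_total cA sC with h | h
    · have h1 : cA / sC ≤ 1 := (div_le_one hs0).2 h
      have h2 : 0 ≤ cA / sC := by positivity
      have h3 : (cA / sC) ^ 2 ≤ cA / sC := by
        rw [pow_two]
        exact mul_le_of_le_one_left h2 h1
      exact hY2.trans (mul_le_mul_of_nonneg_right h3 hDC)
    · have h1 : 1 ≤ cA / sC := (one_le_div hs0).2 h
      calc Y ≤ DC := hY1
        _ = 1 * DC := (one_mul _).symm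
        _ ≤ cA / sC * DC := mul_le_mul_of_nonneg_right h1 hDC
  rcases le_total sC T with h1 | h1
  · calc Y * (T * (sC + T)) ≤ DC * (T * (T + T)) := by
          refine mul_le_mul hY1 ?_ hTs.le hDC
          gcongr
      _ ≤ (C0 * M * (p ^ 2)⁻¹) * (T * (T + T)) := by gcongr
      _ = 2 * C0 * (T ^ 2 * M) * ((p ^ 2)⁻¹ * 1) := by ring
      _ ≤ 2 * C0 ^ 2 * (T ^ 2 * M) * ((p ^ 2)⁻¹ * (p ^ 16)⁻¹) := by gcongr
      _ = 2 * C0 ^ 2 * (T ^ 2 * M) * (p ^ 18)⁻¹ := by rw [nz_i18]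
  · calc Y * (T * (sC + T)) ≤ (cA / sC * DC) * (T * (sC + sC)) := by
          refine mul_le_mul hY3 ?_ hTs.le (by positivity)
          gcongr
      _ = 2 * T * cA * DC := by field_simp; ring
      _ ≤ 2 * T * (C0 * T * (p ^ 16)⁻¹) * (C0 * M * (p ^ 2)⁻¹) := by gcongr
      _ = 2 * C0 ^ 2 * (T ^ 2 * M) * ((p ^ 2)⁻¹ * (p ^ 16)⁻¹) := by ring
      _ = 2 * C0 ^ 2 * (T ^ 2 * M) * (p ^ 18)⁻¹ := by rw [nz_i18]

theorem nz_C (hC0 : 1 ≤ C0) (hT : 0 < T) (hM : 0 < M) (hp : 0 < p) (hU : 0 < U)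
    (hs0 : 0 < sC) (hcP : 0 ≤ cP) (hcP' : cP ≤ C0) {a b X : ℝ}
    (ha : a ≤ C0 * (U * (T * (sC + T) * M)) * p ^ 32)
    (hb : b ≤ C0 * (U * (T * (sC + T) * M)) * p ^ 32)
    (hX : X * (T * (sC + T)) ≤ 2 * C0 ^ 2 * (T ^ 2 * M) * (p ^ 18)⁻¹) :
    6 * (√a + √b) * √(8800 * cP * (U * X)) ≤ 1600 * C0 ^ 2 * (U * (T * M)) * p ^ 7 := by
  have hC0' : 0 < C0 := by linarith
  have hTs : 0 < T * (sC + T) := by positivity
  set B : ℝ := C0 * (U * (T * (sC + T) * M)) * p ^ 32 with hB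
  have hB0 : 0 < B := by positivity
  have b1 : √a ≤ √B := Real.sqrt_le_sqrt ha
  have b2 : √b ≤ √B := Real.sqrt_le_sqrt hb
  have b4 : √B * √(8800 * cP * (U * X)) ≤ 133 * C0 ^ 2 * (U * (T * M)) * p ^ 7 := by
    rw [← Real.sqrt_mul hB0.le]
    refine Real.sqrt_le_iff.2 ⟨by positivity, ?_⟩
    have h2 : B * (8800 * cP * (U * X)) =
        8800 * (C0 * (U ^ 2 * M) * p ^ 32) * cP * (X * (T * (sC + T))) := by
      rw [hB]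
      ring
    rw [h2]
    have h5 : 0 < C0 * (U ^ 2 * M) * p ^ 32 := by positivity
    calc 8800 * (C0 * (U ^ 2 * M) * p ^ 32) * cP * (X * (T * (sC + T)))
        ≤ 8800 * (C0 * (U ^ 2 * M) * p ^ 32) * cP *
          (2 * C0 ^ 2 * (T ^ 2 * M) * (p ^ 18)⁻¹) := by gcongr
      _ ≤ 8800 * (C0 * (U ^ 2 * M) * p ^ 32) * C0 *
          (2 * C0 ^ 2 * (T ^ 2 * M) * (p ^ 18)⁻¹) := by gcongr
      _ = 17600 * (C0 ^ 4 * (U ^ 2 * T ^ 2 * M ^ 2) * p ^ 14) := by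
          field_simp
          ring
      _ ≤ 17689 * (C0 ^ 4 * (U ^ 2 * T ^ 2 * M ^ 2) * p ^ 14) := by
          have : 0 < C0 ^ 4 * (U ^ 2 * T ^ 2 * M ^ 2) * p ^ 14 := by positivity
          linarith
      _ = (133 * C0 ^ 2 * (U * (T * M)) * p ^ 7) ^ 2 := by ring
  calc 6 * (√a + √b) * √(8800 * cP * (U * X))
      ≤ 6 * (√B + √B) * √(8800 * cP * (U * X)) := by gcongr
    _ = 12 * (√B * √(8800 * cP * (U * X))) := by ring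
    _ ≤ 12 * (133 * C0 ^ 2 * (U * (T * M)) * p ^ 7) := by gcongr
    _ = 1596 * (C0 ^ 2 * (U * (T * M)) * p ^ 7) := by ring
    _ ≤ 1600 * (C0 ^ 2 * (U * (T * M)) * p ^ 7) := by
        have : 0 < C0 ^ 2 * (U * (T * M)) * p ^ 7 := by positivity
        linarith
    _ = 1600 * C0 ^ 2 * (U * (T * M)) * p ^ 7 := by ring

theorem nz_0 (hC0 : 1 ≤ C0) (hT : 0 < T) (hM : 0 < M) (hp : 0 < p) (hp1 : p ≤ 1) (hU : 0 < U)
    (hcP : 0 ≤ cP) (hcP' : cP ≤ C0) (hDC : 0 ≤ DC) (hDC' : DC ≤ C0 * M * (p ^ 2)⁻¹)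
    (hG : √(GA * DC) ≤ C0 * (T * M) * (p ^ 2)⁻¹)
    (hv : v ≤ C0 * (U * (T ^ 2 * M)) * p ^ 32) :
    √(v * (8800 * cP * (U * max DC (1 / (T * p ^ 16) * √(GA * DC))))) ≤
      94 * C0 ^ 2 * (U * (T * M)) * p ^ 7 := by
  have hC0' : 0 < C0 := by linarith
  have hi16 : 1 ≤ (p ^ 16)⁻¹ := (one_le_inv₀ (by positivity)).2 (pow_le_one₀ hp.le hp1)
  have h1 : max DC (1 / (T * p ^ 16) * √(GA * DC)) ≤ C0 * M * (p ^ 18)⁻¹ := by
    refine max_le ?_ ?_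
    · calc DC ≤ C0 * M * (p ^ 2)⁻¹ := hDC'
        _ = C0 * M * ((p ^ 2)⁻¹ * 1) := by ring
        _ ≤ C0 * M * ((p ^ 2)⁻¹ * (p ^ 16)⁻¹) := by gcongr
        _ = C0 * M * (p ^ 18)⁻¹ := by rw [nz_i18]
    · calc 1 / (T * p ^ 16) * √(GA * DC) ≤
          1 / (T * p ^ 16) * (C0 * (T * M) * (p ^ 2)⁻¹) := by gcongr
        _ = C0 * M * (p ^ 18)⁻¹ := by
          rw [nz_i18]
          field_simp
  set m : ℝ := max DC (1 / (T * p ^ 16) * √(GA * DC)) with hm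
  have h0 : 0 ≤ m := le_max_of_le_left hDC
  clear_value m
  refine Real.sqrt_le_iff.2 ⟨by positivity, ?_⟩
  have h8 : 0 ≤ 8800 * cP * (U * m) := by positivity
  calc v * (8800 * cP * (U * m))
      ≤ (C0 * (U * (T ^ 2 * M)) * p ^ 32) * (8800 * cP * (U * m)) := by gcongr
    _ ≤ (C0 * (U * (T ^ 2 * M)) * p ^ 32) * (8800 * C0 * (U * (C0 * M * (p ^ 18)⁻¹))) := by
        gcongr
    _ = 8800 * (C0 ^ 3 * (U ^ 2 * T ^ 2 * M ^ 2) * p ^ 14) := by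
        field_simp
    _ ≤ 8800 * (C0 ^ 4 * (U ^ 2 * T ^ 2 * M ^ 2) * p ^ 14) := by
        gcongr
        · norm_num
    _ ≤ 8836 * (C0 ^ 4 * (U ^ 2 * T ^ 2 * M ^ 2) * p ^ 14) := by
        have : 0 < C0 ^ 4 * (U ^ 2 * T ^ 2 * M ^ 2) * p ^ 14 := by positivity
        linarith
    _ = (94 * C0 ^ 2 * (U * (T * M)) * p ^ 7) ^ 2 := by ring

theorem nz_3 (hC0 : 1 ≤ C0) (hT : 0 < T) (hM : 0 < M) (hp : 0 < p) (hU : 0 < U)
    (hDA : 0 ≤ DA) (hDA' : DA ≤ C0 * M * (p ^ 2)⁻¹) (hDC : 0 ≤ DC)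
    (hDC' : DC ≤ C0 * M * (p ^ 2)⁻¹) (hw : w ≤ C0 * (U * M) * (p ^ 2)⁻¹) :
    √(w * (U * ((1 * (T * p ^ 16)) ^ 2 * DA + (T * p ^ 16) ^ 2 * DC))) ≤
      2 * C0 * (U * (T * M)) * p ^ 14 := by
  have hC0' : 0 < C0 := by linarith
  refine Real.sqrt_le_iff.2 ⟨by positivity, ?_⟩
  calc w * (U * ((1 * (T * p ^ 16)) ^ 2 * DA + (T * p ^ 16) ^ 2 * DC))
      ≤ (C0 * (U * M) * (p ^ 2)⁻¹) *
        (U * ((1 * (T * p ^ 16)) ^ 2 * DA + (T * p ^ 16) ^ 2 * DC)) := by gcongr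
    _ ≤ (C0 * (U * M) * (p ^ 2)⁻¹) * (U * ((1 * (T * p ^ 16)) ^ 2 * (C0 * M * (p ^ 2)⁻¹) +
        (T * p ^ 16) ^ 2 * (C0 * M * (p ^ 2)⁻¹))) := by gcongr
    _ = 2 * (C0 ^ 2 * (U * (T * M)) ^ 2 * p ^ 28) := by
        field_simp
        ring
    _ ≤ 4 * (C0 ^ 2 * (U * (T * M)) ^ 2 * p ^ 28) := by
        have : 0 < C0 ^ 2 * (U * (T * M)) ^ 2 * p ^ 28 := by positivity
        linarith
    _ = (2 * C0 * (U * (T * M)) * p ^ 14) ^ 2 := by ring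

theorem nz_5 (hC0 : 1 ≤ C0) (hT : 0 < T) (hM : 0 < M) (hp : 0 < p) (hU : 0 < U) :
    √(550 * (U * (2 * C0 * M * (p ^ 2)⁻¹)) * (8 * C0 * (U * (T ^ 2 * M)) * p ^ 32)) ≤
      94 * C0 * (U * (T * M)) * p ^ 15 := by
  have hC0' : 0 < C0 := by linarith
  refine Real.sqrt_le_iff.2 ⟨by positivity, ?_⟩
  have h1 : 550 * (U * (2 * C0 * M * (p ^ 2)⁻¹)) * (8 * C0 * (U * (T ^ 2 * M)) * p ^ 32) =
      8800 * (C0 ^ 2 * (U * (T * M)) ^ 2 * p ^ 30) := by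
    field_simp
    ring
  rw [h1]
  have h2 : (94 * C0 * (U * (T * M)) * p ^ 15) ^ 2 =
      8836 * (C0 ^ 2 * (U * (T * M)) ^ 2 * p ^ 30) := by ring
  rw [h2]
  have : 0 < C0 ^ 2 * (U * (T * M)) ^ 2 * p ^ 30 := by positivity
  linarith

/-- `z` is the square root of `q ^ (-C4)` -/
theorem nz_6 {z : ℝ} (hC0 : 1 ≤ C0) (hM : 0 < M) (hp : 0 < p) (hU : 0 < U) (hz : 0 < z)
    (hκ : κ ≤ C0 * (U * M) * z ^ 2) :
    √(550 * (U * (2 * C0 * M * (p ^ 2)⁻¹)) * κ) ≤ 34 * C0 * (U * M) * (p⁻¹ * z) := by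
  have hC0' : 0 < C0 := by linarith
  refine Real.sqrt_le_iff.2 ⟨by positivity, ?_⟩
  calc 550 * (U * (2 * C0 * M * (p ^ 2)⁻¹)) * κ
      ≤ 550 * (U * (2 * C0 * M * (p ^ 2)⁻¹)) * (C0 * (U * M) * z ^ 2) := by gcongr
    _ = 1100 * (C0 ^ 2 * (U * M) ^ 2 * (p⁻¹ * z) ^ 2) := by
        field_simp
        ring
    _ ≤ 1156 * (C0 ^ 2 * (U * M) ^ 2 * (p⁻¹ * z) ^ 2) := by
        have : 0 < C0 ^ 2 * (U * M) ^ 2 * (p⁻¹ * z) ^ 2 := by positivity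
        linarith
    _ = (34 * C0 * (U * M) * (p⁻¹ * z)) ^ 2 := by ring

end pure

/-- **Numbers of the engine** (regions 1 and 3 of the gap part). -/
theorem numZ {m C3 C4 C0 : ℝ} (hm : 0 < m) (hC3 : 4 * m ≤ C3) (hC4 : 0 ≤ C4) (hC0 : 1 ≤ C0) :
    ∃ C : ℝ, 0 ≤ C ∧ ∀ (T M q : ℝ) (L : ℕ) (cA cB cC GA DA DB DC cP v w κ : ℝ) (qL qF : ℕ → ℝ),
      0 < T → 0 < M → 0 < q → q ≤ 1 → 0 < cA → cA ≤ C0 * T * q ^ (-(4 * m)) →
      cB ≤ C0 * T * q ^ (-C3) → 0 < cC → cC ≤ C0 * T * q ^ (-C3) →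
      GA ≤ C0 * (T ^ 2 * M) * q ^ (-(m / 2)) → 0 ≤ DA → DA ≤ C0 * M * q ^ (-(m / 2)) →
      DB ≤ C0 * M * q ^ (-(m / 2)) → 0 ≤ DC → DC ≤ C0 * M * q ^ (-(m / 2)) →
      0 ≤ cP → cP ≤ C0 → v ≤ C0 * (4 ^ L * (T ^ 2 * M)) * q ^ (8 * m) →
      w ≤ C0 * (4 ^ L * M) * q ^ (-(m / 2)) →
      (∀ e, qL e ≤ C0 * (4 ^ L * (T * (cC / 2 ^ (e - 1) + T) * M)) * q ^ (8 * m)) →
      (∀ e, q ^ (4 * m) * T < cC / 2 ^ (e - 1) →
        qF e ≤ C0 * (4 ^ L * (T * (cC / 2 ^ (e - 1) + T) * M)) * q ^ (8 * m)) →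
      κ ≤ C0 * (4 ^ L * M) * q ^ (-C4) →
      ∃ (D Q σ ρ σ₀ κC : ℝ) (LA LB LC LC' : ℕ), DA + DB ≤ D ∧ DA + DC ≤ D ∧ 0 < σ ∧ 0 < ρ ∧
        0 ≤ κC ∧ ρ * σ = q ^ (4 * m) * T ∧
        (∀ e, ρ * σ < cC / 2 ^ (e - 1) → ∀ Y : ℝ, Y ≤ DC / ρ ^ 2 →
          Y ≤ (cA / (cC / 2 ^ (e - 1))) ^ 2 * DC → 6 * (√(qL e) + √(qF e)) *
            √(8800 * cP * (4 ^ L * max Y (√(GA * DC) / (cC / 2 ^ (e - 1))))) ≤ κC) ∧
        (∀ e, cC / 2 ^ (e - 1) ≤ ρ * σ → 4 * qL e ≤ Q) ∧ 0 ≤ σ₀ ∧ σ₀ = T * q ^ (C4 + 2 * m) ∧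
        cA / 2 ^ (LA - 1) < σ ∧ cB / 2 ^ (LB - 1) ≤ σ₀ ∧ cC / 2 ^ (LC - 1) ≤ σ₀ ∧
        cC / 2 ^ (LC' - 1) ≤ ρ * σ ∧
        6 * √(v * (8800 * cP * (4 ^ L * max DC (ρ / σ * √(GA * DC))))) * LA + κC * LC' +
          (κC * LC' + 150 * √(w * (4 ^ L * ((ρ * σ) ^ 2 * DA + σ ^ 2 * DC))) +
            (9900 * (4 ^ L * D) * σ + 6 * √(550 * (4 ^ L * D) * Q) * (LB + LC) +
              36 * √(550 * (4 ^ L * D) * κ) * σ₀)) ≤ C * (4 ^ L * (T * M)) * q ^ m := by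
  have hm4 : 0 < m / 4 := by linarith
  have hC0' : 0 < C0 := by linarith
  obtain ⟨Cn, hCn, hn⟩ := lvl (E := C3 + C4 + 8 * m) (by linarith) hC0 (half_pos hm)
  refine ⟨564 * C0 ^ 2 * Cn + 3200 * C0 ^ 2 * Cn + 300 * C0 + 19800 * C0 + 1128 * C0 * Cn +
    1224 * C0, by positivity, ?_⟩
  intro T M q L cA cB cC GA DA DB DC cP v w κ qL qF hT hM hq hq1 hcA hcA' hcB' hcC hcC' hGA'
    hDA hDA' hDB' hDC hDC' hcP hcP' hv hw hqL hqF hκ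
  obtain ⟨n, hn1, hn2⟩ := hn q hq hq1
  set U : ℝ := 4 ^ L with hU
  have hU0 : 0 < U := by positivity
  clear_value U
  set p : ℝ := q ^ (m / 4) with hp
  have hp0 : 0 < p := Real.rpow_pos_of_pos hq _
  have hp1 : p ≤ 1 := Real.rpow_le_one hq.le hq1 hm4.le
  have pw : ∀ (k : ℕ) (x : ℝ), x = k * (m / 4) → q ^ x = p ^ k := by
    intro k x hx
    rw [hx, hp, ← Real.rpow_natCast, ← Real.rpow_mul hq.le, mul_comm]
  have pwn : ∀ (k : ℕ) (x : ℝ), x = k * (m / 4) → q ^ (-x) = (p ^ k)⁻¹ := by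
    intro k x hx
    rw [Real.rpow_neg hq.le, pw k x hx]
  have e2 : q ^ (-(m / 2)) = (p ^ 2)⁻¹ := pwn 2 _ (by push_cast; ring)
  have e16 : q ^ (4 * m) = p ^ 16 := pw 16 _ (by push_cast; ring)
  have e16n : q ^ (-(4 * m)) = (p ^ 16)⁻¹ := pwn 16 _ (by push_cast; ring)
  have e32 : q ^ (8 * m) = p ^ 32 := pw 32 _ (by push_cast; ring)
  have e4 : q ^ m = p ^ 4 := pw 4 _ (by push_cast; ring)
  -- levels
  have lev : ∀ (x G : ℝ), 0 ≤ C3 + G → G ≤ C4 + 8 * m → x ≤ C0 * T * q ^ (-C3) →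
      x / 2 ^ (n - 1) < T * q ^ G := by
    intro x G hG0 hG hx
    have h2 : (0 : ℝ) < 2 ^ (n - 1) := by positivity
    have hqG : 0 < q ^ G := Real.rpow_pos_of_pos hq _
    rw [div_lt_iff₀ h2] at hn1 ⊢
    rw [one_mul] at hn1
    have h3 : q ^ (-C3) = q ^ (-(C3 + G)) * q ^ G := by
      rw [← Real.rpow_add hq]
      congr 1
      ring
    have h4 : q ^ (-(C3 + G)) ≤ q ^ (-(C3 + C4 + 8 * m)) :=
      Real.rpow_le_rpow_of_exponent_ge hq hq1 (by linarith)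
    have h5 : C0 * q ^ (-(C3 + G)) < 2 ^ (n - 1) :=
      (mul_le_mul_of_nonneg_left h4 hC0'.le).trans_lt hn1
    calc x ≤ C0 * T * q ^ (-C3) := hx
      _ = (C0 * q ^ (-(C3 + G))) * (T * q ^ G) := by rw [h3]; ring
      _ < 2 ^ (n - 1) * (T * q ^ G) := mul_lt_mul_of_pos_right h5 (by positivity)
      _ = T * q ^ G * 2 ^ (n - 1) := by ring
  have hcA3 : cA ≤ C0 * T * q ^ (-C3) := by
    refine hcA'.trans ?_
    exact mul_le_mul_of_nonneg_left (Real.rpow_le_rpow_of_exponent_ge hq hq1 (by linarith))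
      (by positivity)
  have lA := lev cA (4 * m) (by linarith) (by linarith) hcA3
  have lC' := lev cC (4 * m) (by linarith) (by linarith) hcC'
  have lB := lev cB (C4 + 2 * m) (by linarith) (by linarith) hcB'
  have lC := lev cC (C4 + 2 * m) (by linarith) (by linarith) hcC'
  rw [e16] at lA lC'
  rw [e2] at hGA' hDA' hDB' hDC' hw
  rw [e16n] at hcA'
  rw [e32] at hv
  simp only [e32] at hqL hqF
  have hn3 : (n : ℝ) ≤ Cn * (p ^ 2)⁻¹ := by rw [← e2]; exact hn2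
  have hσ0 : 0 < T * p ^ 16 := by positivity
  have hσ1 : T * p ^ 16 ≤ T := mul_le_of_le_one_right hT.le (pow_le_one₀ hp0.le hp1)
  have hGD := nz_gd hC0 hT hM hp0 hDC hGA' hDC'
  have hnn : (0 : ℝ) ≤ n := Nat.cast_nonneg n
  refine ⟨2 * C0 * M * (p ^ 2)⁻¹, 8 * C0 * (U * (T ^ 2 * M)) * p ^ 32, T * p ^ 16, 1,
    T * q ^ (C4 + 2 * m), 1600 * C0 ^ 2 * (U * (T * M)) * p ^ 7, n, n, n, n, by linarith,
    by linarith, hσ0, one_pos, by positivity, by rw [e16]; ring, ?_, ?_, ?_, rfl, lA, lB.le, lC.le,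
    by rw [one_mul]; exact lC'.le, ?_⟩
  · -- the C-steps
    intro e he Y hY1 hY2
    have hs0 : 0 < cC / 2 ^ (e - 1) := by positivity
    rw [one_mul] at he
    rw [one_pow, div_one] at hY1
    have he' : q ^ (4 * m) * T < cC / 2 ^ (e - 1) := by rw [e16, mul_comm]; exact he
    refine nz_C hC0 hT hM hp0 hU0 hs0 hcP hcP' (hqL e) (hqF e he') ?_
    rcases le_total Y (√(GA * DC) / (cC / 2 ^ (e - 1))) with h | h
    · rw [max_eq_right h]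
      exact nz_max1 hC0 hT hM hp0 hp1 hs0 he hGD
    · rw [max_eq_left h]
      exact nz_max2 hC0 hT hM hp0 hp1 hcA hcA' hDC hDC' hs0 hY1 hY2
  · -- the light pair at the low levels of C
    intro e he
    rw [one_mul] at he
    have h1 : cC / 2 ^ (e - 1) + T ≤ 2 * T := by linarith
    calc 4 * qL e ≤ 4 * (C0 * (U * (T * (cC / 2 ^ (e - 1) + T) * M)) * p ^ 32) := by
          have := hqL e
          linarith
      _ ≤ 4 * (C0 * (U * (T * (2 * T) * M)) * p ^ 32) := by gcongr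
      _ = 8 * C0 * (U * (T ^ 2 * M)) * p ^ 32 := by ring
  · exact mul_nonneg hT.le (Real.rpow_nonneg hq.le _)
  · -- the sum of all terms
    have t0 := nz_0 hC0 hT hM hp0 hp1 hU0 hcP hcP' hDC hDC' hGD hv
    have t3 := nz_3 hC0 hT hM hp0 hU0 hDA hDA' hDC hDC' hw
    have t5 := nz_5 (C0 := C0) (T := T) (M := M) (p := p) (U := U) hC0 hT hM hp0 hU0
    have hz : 0 < q ^ (-(C4 / 2)) := Real.rpow_pos_of_pos hq _
    have hz2 : (q ^ (-(C4 / 2))) ^ 2 = q ^ (-C4) := by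
      rw [← Real.rpow_natCast, ← Real.rpow_mul hq.le]
      congr 1
      push_cast
      ring
    have t6 := nz_6 (κ := κ) hC0 hM hp0 hU0 hz (by rw [hz2]; exact hκ)
    have a0 : 0 < U * (T * M) := by positivity
    -- powers
    have k7 : p ^ 7 * (p ^ 2)⁻¹ ≤ p ^ 4 := by
      rw [show p ^ 7 * (p ^ 2)⁻¹ = p ^ 5 by field_simp]
      exact pow_le_pow_of_le_one hp0.le hp1 (by norm_num)
    have k15 : p ^ 15 * (p ^ 2)⁻¹ ≤ p ^ 4 := by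
      rw [show p ^ 15 * (p ^ 2)⁻¹ = p ^ 13 by field_simp]
      exact pow_le_pow_of_le_one hp0.le hp1 (by norm_num)
    have k14 : p ^ 14 ≤ p ^ 4 := pow_le_pow_of_le_one hp0.le hp1 (by norm_num)
    have k16 : (p ^ 2)⁻¹ * p ^ 16 ≤ p ^ 4 := by
      rw [show (p ^ 2)⁻¹ * p ^ 16 = p ^ 14 by field_simp]
      exact k14
    have k6 : p⁻¹ * q ^ (-(C4 / 2)) * q ^ (C4 + 2 * m) ≤ p ^ 4 := by
      have h1 : q ^ (-(C4 / 2)) * q ^ (C4 + 2 * m) ≤ p ^ 8 := by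
        rw [← Real.rpow_add hq, ← pw 8 (2 * m) (by push_cast; ring)]
        exact Real.rpow_le_rpow_of_exponent_ge hq hq1 (by linarith)
      calc p⁻¹ * q ^ (-(C4 / 2)) * q ^ (C4 + 2 * m) =
            p⁻¹ * (q ^ (-(C4 / 2)) * q ^ (C4 + 2 * m)) := by ring
        _ ≤ p⁻¹ * p ^ 8 := by gcongr
        _ = p ^ 7 := by field_simp
        _ ≤ p ^ 4 := pow_le_pow_of_le_one hp0.le hp1 (by norm_num)
    have s1 : 6 * √(v * (8800 * cP * (U * max DC (1 / (T * p ^ 16) * √(GA * DC))))) * (n : ℝ) ≤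
        564 * C0 ^ 2 * Cn * (U * (T * M)) * p ^ 4 :=
      calc 6 * √(v * (8800 * cP * (U * max DC (1 / (T * p ^ 16) * √(GA * DC))))) * (n : ℝ)
          ≤ 6 * (94 * C0 ^ 2 * (U * (T * M)) * p ^ 7) * (Cn * (p ^ 2)⁻¹) := by gcongr
        _ = 564 * C0 ^ 2 * Cn * (U * (T * M)) * (p ^ 7 * (p ^ 2)⁻¹) := by ring
        _ ≤ 564 * C0 ^ 2 * Cn * (U * (T * M)) * p ^ 4 := by gcongr
    have s2 : 1600 * C0 ^ 2 * (U * (T * M)) * p ^ 7 * (n : ℝ) ≤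
        1600 * C0 ^ 2 * Cn * (U * (T * M)) * p ^ 4 :=
      calc 1600 * C0 ^ 2 * (U * (T * M)) * p ^ 7 * (n : ℝ)
          ≤ 1600 * C0 ^ 2 * (U * (T * M)) * p ^ 7 * (Cn * (p ^ 2)⁻¹) := by gcongr
        _ = 1600 * C0 ^ 2 * Cn * (U * (T * M)) * (p ^ 7 * (p ^ 2)⁻¹) := by ring
        _ ≤ 1600 * C0 ^ 2 * Cn * (U * (T * M)) * p ^ 4 := by gcongr
    have s3 : 150 * √(w * (U * ((1 * (T * p ^ 16)) ^ 2 * DA + (T * p ^ 16) ^ 2 * DC))) ≤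
        300 * C0 * (U * (T * M)) * p ^ 4 :=
      calc 150 * √(w * (U * ((1 * (T * p ^ 16)) ^ 2 * DA + (T * p ^ 16) ^ 2 * DC)))
          ≤ 150 * (2 * C0 * (U * (T * M)) * p ^ 14) := by gcongr
        _ = 300 * C0 * (U * (T * M)) * p ^ 14 := by ring
        _ ≤ 300 * C0 * (U * (T * M)) * p ^ 4 := by gcongr
    have s4 : 9900 * (U * (2 * C0 * M * (p ^ 2)⁻¹)) * (T * p ^ 16) ≤
        19800 * C0 * (U * (T * M)) * p ^ 4 :=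
      calc 9900 * (U * (2 * C0 * M * (p ^ 2)⁻¹)) * (T * p ^ 16)
          = 19800 * C0 * (U * (T * M)) * ((p ^ 2)⁻¹ * p ^ 16) := by ring
        _ ≤ 19800 * C0 * (U * (T * M)) * p ^ 4 := by gcongr
    have s5 : 6 * √(550 * (U * (2 * C0 * M * (p ^ 2)⁻¹)) *
          (8 * C0 * (U * (T ^ 2 * M)) * p ^ 32)) * ((n : ℝ) + n) ≤
        1128 * C0 * Cn * (U * (T * M)) * p ^ 4 :=
      calc 6 * √(550 * (U * (2 * C0 * M * (p ^ 2)⁻¹)) *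
            (8 * C0 * (U * (T ^ 2 * M)) * p ^ 32)) * ((n : ℝ) + n)
          ≤ 6 * (94 * C0 * (U * (T * M)) * p ^ 15) *
            (Cn * (p ^ 2)⁻¹ + Cn * (p ^ 2)⁻¹) := by gcongr
        _ = 1128 * C0 * Cn * (U * (T * M)) * (p ^ 15 * (p ^ 2)⁻¹) := by ring
        _ ≤ 1128 * C0 * Cn * (U * (T * M)) * p ^ 4 := by gcongr
    have s6 : 36 * √(550 * (U * (2 * C0 * M * (p ^ 2)⁻¹)) * κ) * (T * q ^ (C4 + 2 * m)) ≤
        1224 * C0 * (U * (T * M)) * p ^ 4 :=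
      calc 36 * √(550 * (U * (2 * C0 * M * (p ^ 2)⁻¹)) * κ) * (T * q ^ (C4 + 2 * m))
          ≤ 36 * (34 * C0 * (U * M) * (p⁻¹ * q ^ (-(C4 / 2)))) * (T * q ^ (C4 + 2 * m)) := by
            gcongr
        _ = 1224 * C0 * (U * (T * M)) * (p⁻¹ * q ^ (-(C4 / 2)) * q ^ (C4 + 2 * m)) := by ring
        _ ≤ 1224 * C0 * (U * (T * M)) * p ^ 4 := by gcongr
    rw [e4]
    linarith

end Vale.Agent.P141.H775
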