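import Vale.Agent.P141.H555.TzQ
import Vale.Agent.P141.H511.SeamZ
import Vale.Agent.P141.H775.NumZ

/-!
# P141, line (A), gap part: the sum of the gap parts with all numbers in it

`tz_num` : `H555.tzX_lab'` with the numbers of `numZ`, over `H511.seam_sum`.
-/

set_option linter.unusedSectionVars false

namespace Vale.Agent.P141.H775

open Finset Matrix Vale.Agent.P075 Vale.Agent.P141.PL Vale.Agent.P141.PL.H588
open Vale.Agent.P141.PL.H804 Vale.Agent.P141.H736 Vale.Agent.P141.H958 Vale.Agent.P141.H338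
open Vale.Agent.P141.H576 Vale.Agent.P141.H609
open Vale.Agent.P141.H971 (Fam0 FamR)
open Vale.Agent.P141.H822 (SV kV VL)
open Vale.Agent.P141.H511 (BL CL YW seam_sum seam_v SV_ct)
open Vale.Agent.P141.H677 (ndZ nf3)

noncomputable section

open scoped Classical

/-- **The gap part with numbers**, one root: units `T`, `M`, `q`. -/
theorem tz_num {m C3 C4 C0 : ℝ} (hm : 0 < m) (hC3 : 4 * m ≤ C3) (hC4 : 0 ≤ C4) (hC0 : 1 ≤ C0) :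
    ∃ C₁ : ℝ, 0 ≤ C₁ ∧ ∀ (ι : Type) [Fintype ι] [DecidableEq ι] (lb : ι → ℤ) (l : ℝ)
      (G K : ℤ → ℕ → ℤ → Matrix ι ι ℝ) (N L : ℕ) (R : Pt) (X : Finset ℤ) (c : ℤ → ℕ → ℤ)
      (A : ℤ → ℕ → ℤ → ℤ → ℝ) (b C : ℤ → ℕ → ℤ → ℤ → ι → ℝ) (s : ℤ → ℕ → Finset Pt)
      (QA QB QC : ℤ → ℕ → ℤ → ℤ → Prop)
      (T M q cA cB cC GA DA DB DC cP v w κ : ℝ) (qL qF : ℕ → ℝ),
      Function.Injective lb → (∀ i, lb i ∈ lbs L) → (∀ x, H420.Tr l N (G x) (K x)) →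
      (∀ i ∈ X, Pl (c i)) → (∀ i ∈ X, ∀ k ∈ Icc 1 N, s i k ⊆ bx3 N R k (c i k)) →
      0 < T → 0 < M → 0 < q → q ≤ 1 →
      0 < cA → cA ≤ C0 * T * q ^ (-(4 * m)) → 0 < cB → cB ≤ C0 * T * q ^ (-C3) →
      0 < cC → cC ≤ C0 * T * q ^ (-C3) →
      0 < GA → GA ≤ C0 * (T ^ 2 * M) * q ^ (-(m / 2)) → 0 ≤ DA → DA ≤ C0 * M * q ^ (-(m / 2)) →
      DB ≤ C0 * M * q ^ (-(m / 2)) → 0 < DC → DC ≤ C0 * M * q ^ (-(m / 2)) →
      1 ≤ cP → cP ≤ C0 → v ≤ C0 * (T ^ 2 * M) * q ^ (8 * m) →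
      w ≤ C0 * (4 ^ L * M) * q ^ (-(m / 2)) →
      (∀ e, qL e ≤ C0 * (4 ^ L * (T * (cC / 2 ^ (e - 1) + T) * M)) * q ^ (8 * m)) →
      (∀ e, q ^ (4 * m) * T < cC / 2 ^ (e - 1) →
        qF e ≤ C0 * (4 ^ L * (T * (cC / 2 ^ (e - 1) + T) * M)) * q ^ (8 * m)) →
      0 ≤ κ → κ ≤ C0 * (4 ^ L * M) * q ^ (-C4) →
      (∀ i ∈ X, ∀ k ∈ Icc 1 N, ∀ m ∈ s i k, Cap k m.1 m.2.1 cA (A i k)) →
      (∀ i ∈ X, ∀ k ∈ Icc 1 N, ∀ m ∈ s i k, CapR L k m.2.1 m.2.2 cB (BL lb (b i k))) →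
      (∀ i ∈ X, ∀ k ∈ Icc 1 N, ∀ m ∈ s i k, CapR L k m.1 m.2.2 cC (CL lb (C i k))) →
      Fam0 N R.1 R.2.1 X QA A cP GA DA →
      (∀ i ∈ X, BL lb (b i 0) = 0) →
      (∀ i ∈ X, ∀ j ∈ lbs L, Path N R.2.1 R.2.2 (QB i) (fun k => BL lb (b i k) j)) →
      (∑ i ∈ X, ∑ j ∈ lbs L, pwr N R.2.1 R.2.2 (QB i) (fun k => BL lb (b i k) j) ≤ DB) →
      (∀ i ∈ X, CL lb (C i 0) = 0) →
      (∀ i ∈ X, ∀ j ∈ lbs L, Path N R.1 R.2.2 (QC i) (fun k => CL lb (C i k) j)) →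
      (∑ i ∈ X, ∑ j ∈ lbs L, pwr N R.1 R.2.2 (QC i) (fun k => CL lb (C i k) j) ≤ DC) →
      (∑ i ∈ X, ∑ k ∈ Icc 1 N, ∑ m ∈ s i k, (4 ^ (k + L) : ℝ)⁻¹ *
        (WZ L l lb (A i) (b i) K (k + L) m * (WZ L l lb (A i) (b i) K (k + L) m)ᵀ).trace ≤
          (4 ^ L : ℝ)⁻¹ * v) →
      (∑ i ∈ X, ∑ k ∈ Icc 1 N, ∑ m ∈ s i k,
        (YW L l lb K (b i) (k + L) m * (YW L l lb K (b i) (k + L) m)ᵀ).trace ≤ w) →
      (∀ e, ∑ i ∈ X, (cC / 2 ^ (e - 1)) ^ 2 * ∑ k ∈ Icc 1 N, ∑ m ∈ s i k,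
        (phi (gramC (lv cC e * (4 ^ (k + L))⁻¹) (bl (k + L) (encR L (CL lb (C i k))) m.1 m.2.2)) *
          ((hd (k + L) * SV L lb (VL l K) (k + L) m *
            (bl (k + L) (encR L (BL lb (b i k))) m.2.1 m.2.2)ᵀ * hd (k + L)) *
          (hd (k + L) * SV L lb (VL l K) (k + L) m *
            (bl (k + L) (encR L (BL lb (b i k))) m.2.1 m.2.2)ᵀ * hd (k + L))ᵀ)).trace ≤ qL e) →
      (∀ e, q ^ (4 * m) * T < cC / 2 ^ (e - 1) → ∑ i ∈ X, (cC / 2 ^ (e - 1)) ^ 2 *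
        ∑ k ∈ Icc 1 N, ∑ m ∈ s i k,
        (phi (gramC (lv cC e * (4 ^ (k + L))⁻¹) (bl (k + L) (encR L (CL lb (C i k))) m.1 m.2.2)) *
          (YW L l lb K (b i) (k + L) m * (YW L l lb K (b i) (k + L) m)ᵀ)).trace ≤ qF e) →
      (∀ j e, cB / 2 ^ (j - 1) ≤ T * q ^ (C4 + 2 * m) →
        cC / 2 ^ (e - 1) ≤ T * q ^ (C4 + 2 * m) →
        ∑ i ∈ X, LP (N + L) (shs L (s i)) cB cC (shF L fun k => encR L (BL lb (b i k)))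
          (shF L fun k => encR L (CL lb (C i k))) (SV L lb (VL l K)) j e ≤
          κ * max (cB / 2 ^ (j - 1)) (cC / 2 ^ (e - 1)) ^ 2) →
      ∑ i ∈ X, ∑ k ∈ Icc 1 N, ∑ m ∈ s i k, |ndZ l K (A i k) (b i k) (C i k) k m| ≤
        C₁ * (T * M) * q ^ m := by
  obtain ⟨C₁, hC₁, H⟩ := numZ hm hC3 hC4 hC0
  refine ⟨C₁, hC₁, ?_⟩
  intro ι _ _ lb l G K N L R X c A b C s QA QB QC T M q cA cB cC GA DA DB DC cP v w κ qL qF
    hinj hlb hTr hc hs hT hM hq hq1 hcA hcA' hcB hcB' hcC hcC' hGA hGA' hDA hDA' hDB' hDC hDC'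
    hcP hcP' hv hw hqL hqF hκ0 hκ capA capB capC fA zB pB oB zC pC oC gv gw gL gF gκ
  have h4 : (0 : ℝ) < 4 ^ L := by positivity
  obtain ⟨D, Q, σ, ρ, σ₀, κC, LA, LB, LC, LC', hD, hD', hσ, hρ, hκC, hρσ, hκq, hQ, hσ₀, hσ₀', lA,
    lB, lC, lC', key⟩ := H T M q L cA cB cC GA DA DB DC cP (4 ^ L * v) w κ qL qF hT hM hq hq1 hcA
      hcA' hcB' hcC hcC' hGA' hDA hDA' hDB' hDC.le hDC' (by linarith) hcP'
      (by
        refine (mul_le_mul_of_nonneg_left hv h4.le).trans (le_of_eq ?_)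
        ring) hw hqL hqF hκ
  have h1 := H555.tzX_lab' (N := N) (L := L) (R := R) (X := X) (c := c) (A := A)
    (B := fun i k => BL lb (b i k)) (C := fun i k => CL lb (C i k)) (cA := cA) (cB := cB)
    (cC := cC) (s := s) (S := fun _ => SV L lb (VL l K)) (YF := fun i => YW L l lb K (b i))
    (QA := QA) (QB := QB) (QC := QC) (GA := GA) (DA := DA) (DB := DB) (DC := DC) (cP := cP)
    hc hs hcA hcB hcC capA capB capC hcP (fun i _ k _ m _ => SV_ct hinj hlb hTr k m) fA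
    (fun i hi => zB i hi) pB oB (fun i hi => zC i hi) pC oC hGA hDC (D := D) (Q := Q) (κ := κ)
    (σ := σ) (ρ := ρ) (σ₀ := σ₀) (v := 4 ^ L * v) (w := w) (κC := κC) (qL := qL) (qF := qF)
    hD hD' hσ hρ hκC (seam_v hinj hlb gv) gw gL (fun e he => gF e (by rw [← hρσ]; exact he))
    (fun e he => hκq e he _ (min_le_left _ _) (min_le_right _ _)) hQ hκ0 hσ₀
    (fun j e h1 h2 => gκ j e (by rw [← hσ₀']; exact h1) (by rw [← hσ₀']; exact h2)) lA lB lC lC'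
  rw [seam_sum hinj hlb]
  calc (4 ^ L : ℝ)⁻¹ * _ ≤ (4 ^ L : ℝ)⁻¹ * (C₁ * (4 ^ L * (T * M)) * q ^ m) :=
        mul_le_mul_of_nonneg_left (h1.trans key) (inv_nonneg.2 h4.le)
    _ = C₁ * (T * M) * q ^ m := by
        field_simp

end

end Vale.Agent.P141.H775
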