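import Vale.Agent.P141.H331.SkelTZ
import Vale.Agent.P141.H775.TzN

/-!
# P141, line (A), gap part: the price of one tile

`tileZ : H331.TileZ` from `tz_num`: units `T = t s^(1/4)`, `M = s 8^K`, `q = t / r`.
-/

set_option linter.unusedSectionVars false

namespace Vale.Agent.P141.H775

open Finset Matrix Vale.Agent.P075 Vale.Agent.P141.PL Vale.Agent.P141.PL.H588
open Vale.Agent.P141.PL.H804 Vale.Agent.P141.H958 Vale.Agent.P141.H338 Vale.Agent.P141.H609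
open Vale.Agent.P141.H677 (ndZ KT GT rt sN cP_pl sN_sub tr_T)
open Vale.Agent.P141.H331 (lsz cCz ZT TileZ StZ)

noncomputable section

open scoped Classical

section numbers

variable {p : H401.Num} {s r m : ℝ}

theorem qpos (ht : 0 < p.t) (hr : 1 ≤ r) : 0 < p.t / r := div_pos ht (by linarith)

theorem qle (ht : 0 < p.t) (hr : 1 ≤ r) : p.t / r ≤ p.t := div_le_self ht.le hr

theorem th_eq (ht : 0 < p.t) (hr : 1 ≤ r) :
    p.th s r = p.t * s ^ (1 / 4 : ℝ) * (p.t / r) ^ (-p.k3) := by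
  have hr0 : 0 < r := by linarith
  unfold H401.Num.th
  rw [Real.div_rpow ht.le hr0.le, Real.rpow_sub ht, Real.rpow_one, Real.rpow_neg hr0.le,
    Real.rpow_neg ht.le, div_inv_eq_mul]
  field_simp

theorem be_eq (ht : 0 < p.t) (hr : 1 ≤ r) :
    p.be s r = p.t * s ^ (1 / 4 : ℝ) * (p.t / r) ^ p.k8 := by
  have hr0 : 0 < r := by linarith
  unfold H401.Num.be
  rw [Real.div_rpow ht.le hr0.le, Real.rpow_add ht, Real.rpow_one, Real.rpow_neg hr0.le]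
  field_simp

theorem lsz_le (ht : 0 < p.t) (ht1 : p.t ≤ 1) (hr : 1 ≤ r) (h0 : 0 ≤ 8 * (p.c + p.d))
    (h : 8 * (p.c + p.d) ≤ m) : lsz p ≤ (p.t / r) ^ (-m) := by
  unfold H331.lsz
  have hq := qpos ht hr
  calc p.t ^ (-(8 * (p.c + p.d))) ≤ (p.t / r) ^ (-(8 * (p.c + p.d))) :=
        Real.rpow_le_rpow_of_nonpos hq (qle ht hr) (by linarith)
    _ ≤ (p.t / r) ^ (-m) :=
        Real.rpow_le_rpow_of_exponent_ge hq ((qle ht hr).trans ht1) (by linarith)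

theorem cCz_le (ht : 0 < p.t) (ht1 : p.t ≤ 1) (hs : 0 < s) (hr : 1 ≤ r) (hd : 0 ≤ p.d)
    (hd1 : p.d ≤ 4) : cCz p s ≤ 2 * (p.t * s ^ (1 / 4 : ℝ)) * (p.t / r) ^ (-(2 : ℝ)) := by
  unfold H331.cCz H401.Num.Lm
  have hq := qpos ht hr
  have h1 : √(√(p.t ^ (-p.d) * s)) = p.t ^ (-(p.d / 4)) * s ^ (1 / 4 : ℝ) := by
    have e1 : 0 ≤ p.t ^ (-p.d) := Real.rpow_nonneg ht.le _
    rw [Real.sqrt_eq_rpow, Real.sqrt_eq_rpow, ← Real.rpow_mul (by positivity),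
      Real.mul_rpow e1 hs.le, ← Real.rpow_mul ht.le]
    congr 2 <;> ring
  rw [h1]
  have h2 : p.t ^ (-(p.d / 4)) ≤ p.t * (p.t / r) ^ (-(2 : ℝ)) := by
    calc p.t ^ (-(p.d / 4)) ≤ p.t ^ (-(1 : ℝ)) :=
          Real.rpow_le_rpow_of_exponent_ge ht ht1 (by linarith)
      _ = p.t * p.t ^ (-(2 : ℝ)) := by
          rw [← Real.rpow_one_add' ht.le (by norm_num)]
          norm_num
      _ ≤ p.t * (p.t / r) ^ (-(2 : ℝ)) :=
          mul_le_mul_of_nonneg_left (Real.rpow_le_rpow_of_nonpos hq (qle ht hr) (by norm_num)) ht.le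
  have hs4 : 0 ≤ s ^ (1 / 4 : ℝ) := Real.rpow_nonneg hs.le _
  calc 2 * (p.t ^ (-(p.d / 4)) * s ^ (1 / 4 : ℝ)) ≤
      2 * (p.t * (p.t / r) ^ (-(2 : ℝ)) * s ^ (1 / 4 : ℝ)) := by gcongr
    _ = 2 * (p.t * s ^ (1 / 4 : ℝ)) * (p.t / r) ^ (-(2 : ℝ)) := by ring

theorem T2M (ht : 0 < p.t) (hs : 0 < s) (K : ℕ) :
    p.t ^ (2 : ℝ) * s ^ (3 / 2 : ℝ) * 8 ^ K = (p.t * s ^ (1 / 4 : ℝ)) ^ 2 * (s * 8 ^ K) := by
  have h1 : s ^ (3 / 2 : ℝ) = (s ^ (1 / 4 : ℝ)) ^ 2 * s := by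
    rw [← Real.rpow_natCast, ← Real.rpow_mul hs.le, ← Real.rpow_add_one hs.ne']
    norm_num
  rw [h1, Real.rpow_two]
  ring

theorem price_eq {t s r ez C g : ℝ} (ht : 0 < t) (hs : 0 < s) (hr : 1 ≤ r) (K : ℕ) :
    √ez * (C * (t * s ^ (1 / 4 : ℝ) * (s * 8 ^ K)) * (t / r) ^ g) =
      C * (t ^ (1 + g) * s ^ (5 / 4 : ℝ) * √ez * 8 ^ K) * r ^ (-g) := by
  have hr0 : 0 < r := by linarith
  have h1 : s ^ (5 / 4 : ℝ) = s ^ (1 / 4 : ℝ) * s := by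
    rw [← Real.rpow_add_one hs.ne']
    norm_num
  rw [h1, Real.div_rpow ht.le hr0.le, Real.rpow_add ht, Real.rpow_one, Real.rpow_neg hr0.le]
  field_simp

end numbers

section reals

variable {T M q m CD ls k3 k8 e0 s sj V th be cz t2 W : ℝ}

theorem n_cap (hT : 0 < T) (hq : 0 < q) (hq1 : q ≤ 1) (hCD : 1 ≤ CD) {x y : ℝ}
    (h : V ≤ T * q ^ x) (hxy : y ≤ x) : V ≤ 2 * CD * T * q ^ y := by
  have h1 : T * q ^ x ≤ T * q ^ y :=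
    mul_le_mul_of_nonneg_left (Real.rpow_le_rpow_of_exponent_ge hq hq1 hxy) hT.le
  have h2 : 0 ≤ T * q ^ y := mul_nonneg hT.le (Real.rpow_nonneg hq.le _)
  have h3 : 1 * (T * q ^ y) ≤ (2 * CD) * (T * q ^ y) :=
    mul_le_mul_of_nonneg_right (by linarith) h2
  linarith

theorem n_cap2 (hT : 0 < T) (hq : 0 < q) (hCD : 1 ≤ CD) {x : ℝ}
    (h : V ≤ 2 * T * q ^ x) : V ≤ 2 * CD * T * q ^ x := by
  have h2 : 0 ≤ T * q ^ x := mul_nonneg hT.le (Real.rpow_nonneg hq.le _)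
  have h3 : 1 * (T * q ^ x) ≤ CD * (T * q ^ x) := mul_le_mul_of_nonneg_right hCD h2
  linarith

theorem n_mass (hM : 0 ≤ M) (hCD : 1 ≤ CD) (h : ls ≤ W) (hW : 0 ≤ W) :
    CD * M * ls ≤ 2 * CD * M * W := by
  have h1 : 0 ≤ CD * M := mul_nonneg (by linarith) hM
  have h2 : CD * M * ls ≤ CD * M * W := mul_le_mul_of_nonneg_left h h1
  have h3 : 0 ≤ CD * M * W := mul_nonneg h1 hW
  linarith

theorem n_light (hT : 0 < T) (hq : 0 < q) (hq1 : q ≤ 1) (hk8 : 0 < k8) (h0 : 0 < sj)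
    (hbe : be = T * q ^ k8) : be * sj + be ^ 2 ≤ T * (sj + T) * q ^ k8 := by
  rw [hbe]
  have h2 : q ^ k8 ≤ 1 := Real.rpow_le_one hq.le hq1 hk8.le
  have h3 : T ^ 2 * q ^ k8 * q ^ k8 ≤ T ^ 2 * q ^ k8 * 1 :=
    mul_le_mul_of_nonneg_left h2 (mul_nonneg (sq_nonneg _) (Real.rpow_nonneg hq.le _))
  calc T * q ^ k8 * sj + (T * q ^ k8) ^ 2 = T * sj * q ^ k8 + T ^ 2 * q ^ k8 * q ^ k8 := by ring
    _ ≤ T * sj * q ^ k8 + T ^ 2 * q ^ k8 * 1 := by linarith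
    _ = T * (sj + T) * q ^ k8 := by ring

theorem n_flow (hq : 0 < q) (hth : th = T * q ^ (-k3)) :
    th ^ 2 * q ^ e0 = T ^ 2 * q ^ (e0 - 2 * k3) := by
  rw [hth, mul_pow, mul_assoc, ← Real.rpow_natCast (q ^ (-k3)), ← Real.rpow_mul hq.le,
    ← Real.rpow_add hq]
  congr 2
  push_cast
  ring

theorem n_gap {T2M : ℝ} (h : ls * q ^ e0 ≤ W) (hT : 0 ≤ T2M) (hCD : 1 ≤ CD) (hW : 0 ≤ W) :
    CD * (ls * (q ^ e0)) * T2M ≤ 2 * CD * T2M * W := by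
  have h1 : 0 ≤ CD * T2M := mul_nonneg (by linarith) hT
  calc CD * (ls * (q ^ e0)) * T2M = CD * T2M * (ls * q ^ e0) := by ring
    _ ≤ 2 * CD * T2M * W := n_mass hT hCD h hW

end reals

section reals2

variable {T M q m CD ls k3 k8 e0 s sj th be : ℝ} {K Lb : ℕ}

theorem t_light (hT : 0 < T) (hM : 0 < M) (hq : 0 < q) (hq1 : q ≤ 1) (hk8 : 0 < k8)
    (hCD0 : 0 < CD) (hls0 : 0 < ls) (h0 : 0 < sj) (hbe : be = T * q ^ k8)
    (h8 : ls * q ^ k8 ≤ q ^ (8 * m)) (hMd : M = s * 8 ^ K) :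
    4 ^ Lb * (CD * (ls * ((be * sj + be ^ 2) * s) * 8 ^ K)) ≤
      2 * CD * (4 ^ Lb * (T * (sj + T) * M)) * q ^ (8 * m) := by
  have h1 := n_light hT hq hq1 hk8 h0 hbe
  have h5 : 0 ≤ CD * (4 ^ Lb * (T * (sj + T) * M)) := by positivity
  have h6 : 0 ≤ CD * 4 ^ Lb * ls := by positivity
  calc 4 ^ Lb * (CD * (ls * ((be * sj + be ^ 2) * s) * 8 ^ K)) =
        CD * 4 ^ Lb * ls * (be * sj + be ^ 2) * M := by rw [hMd]; ring
    _ ≤ CD * 4 ^ Lb * ls * (T * (sj + T) * q ^ k8) * M :=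
        mul_le_mul_of_nonneg_right (mul_le_mul_of_nonneg_left h1 h6) hM.le
    _ = CD * (4 ^ Lb * (T * (sj + T) * M)) * (ls * q ^ k8) := by ring
    _ ≤ CD * (4 ^ Lb * (T * (sj + T) * M)) * q ^ (8 * m) := mul_le_mul_of_nonneg_left h8 h5
    _ ≤ 2 * CD * (4 ^ Lb * (T * (sj + T) * M)) * q ^ (8 * m) := by
        have : 0 ≤ CD * (4 ^ Lb * (T * (sj + T) * M)) * q ^ (8 * m) :=
          mul_nonneg h5 (Real.rpow_nonneg hq.le _)
        linarith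

theorem t_flow (hT : 0 < T) (hM : 0 < M) (hq : 0 < q)
    (hCD0 : 0 < CD) (h0 : 0 < sj) (hth : th = T * q ^ (-k3))
    (h8 : ls * q ^ (e0 - 2 * k3) ≤ q ^ (8 * m)) (hMd : M = s * 8 ^ K) :
    4 ^ Lb * (CD * (ls * (th ^ 2 * q ^ e0 * s) * 8 ^ K)) ≤
      2 * CD * (4 ^ Lb * (T * (sj + T) * M)) * q ^ (8 * m) := by
  have h1 := n_flow (e0 := e0) hq hth
  have h2 : T ^ 2 ≤ T * (sj + T) := by
    have := mul_pos hT h0
    rw [pow_two, mul_add]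
    linarith
  have h5 : 0 ≤ CD * (4 ^ Lb * (T * (sj + T) * M)) := by positivity
  have h6 : 0 ≤ CD * 4 ^ Lb * M := by positivity
  have h7 : 0 ≤ q ^ (8 * m) := Real.rpow_nonneg hq.le _
  calc 4 ^ Lb * (CD * (ls * (th ^ 2 * q ^ e0 * s) * 8 ^ K)) =
        CD * 4 ^ Lb * M * ls * (th ^ 2 * q ^ e0) := by rw [hMd]; ring
    _ = CD * 4 ^ Lb * M * T ^ 2 * (ls * q ^ (e0 - 2 * k3)) := by rw [h1]; ring
    _ ≤ CD * 4 ^ Lb * M * T ^ 2 * q ^ (8 * m) :=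
        mul_le_mul_of_nonneg_left h8 (mul_nonneg h6 (sq_nonneg _))
    _ ≤ CD * 4 ^ Lb * M * (T * (sj + T)) * q ^ (8 * m) :=
        mul_le_mul_of_nonneg_right (mul_le_mul_of_nonneg_left h2 h6) h7
    _ = CD * (4 ^ Lb * (T * (sj + T) * M)) * q ^ (8 * m) := by ring
    _ ≤ 2 * CD * (4 ^ Lb * (T * (sj + T) * M)) * q ^ (8 * m) := by
        have : 0 ≤ CD * (4 ^ Lb * (T * (sj + T) * M)) * q ^ (8 * m) := mul_nonneg h5 h7
        linarith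

end reals2

/-- **The price of one tile.** -/
theorem tileZ : TileZ := by
  intro a _ _
  refine ⟨1, one_pos, fun e0 he0 _ => ⟨1, one_pos, fun k8 hk8 hk81 => ?_⟩⟩
  obtain ⟨m, hm, hm8, hme⟩ : ∃ m : ℝ, 0 < m ∧ 16 * m ≤ k8 ∧ 160 * m ≤ e0 := by
    refine ⟨min k8 (e0 / 10) / 16, by positivity, ?_, ?_⟩
    · linarith [min_le_left k8 (e0 / 10)]
    · linarith [min_le_right k8 (e0 / 10)]
  refine ⟨4 * m, by positivity, fun k3 hk3 hk3' => ⟨m, m / 64, m / 64, m, hm, by positivity,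
    by positivity, hm, fun c hc hcc d hd hdd Kt e cP L hKt he hcP hL CD hCD => ?_⟩⟩
  obtain ⟨C₁, hC₁, H⟩ := tz_num (m := m) (C3 := 2) (C4 := 10) (C0 := 2 * CD) hm (by linarith)
    (by norm_num) (by linarith)
  refine ⟨C₁, hC₁, ?_⟩
  intro t ht ht1 n ez F1 F2 F3 _ _ _ o ho K _ x ι _ _ s r U g u v hs hr _ Lb lb t0 A b C hinj hlb
    hT
  have hr0 : 0 < r := by linarith
  set p : H401.Num := ⟨a, e0, k8, k3, c, d, Kt, e, cP, L, CD, t⟩ with hp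
  have htp : 0 < p.t := ht
  have ht1p : p.t ≤ 1 := ht1
  obtain ⟨⟨capA, capB, capC⟩, ⟨⟨QA, fA⟩, ⟨QB, b0, pB, oB⟩, QC, c0, pC, oC⟩, gv, gw, gL, gF, gκ⟩ := hT
  have hq : 0 < t / r := qpos (p := p) ht hr
  have hqt : t / r ≤ t := qle (p := p) ht hr
  have hq1 : t / r ≤ 1 := hqt.trans ht1
  have hth := th_eq (p := p) (s := s) ht hr
  have hbe := be_eq (p := p) (s := s) ht hr
  have hls : lsz p ≤ (t / r) ^ (-(m / 4)) :=
    lsz_le (p := p) ht ht1 hr (show 0 ≤ 8 * (c + d) by linarith) (show 8 * (c + d) ≤ m / 4 by linarith)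
  have hcz := cCz_le (p := p) ht ht1 hs hr (show 0 ≤ d from hd.le) (show d ≤ 4 by linarith)
  have hcz0 : 0 < cCz p s := by
    unfold H331.cCz
    have : 0 < p.Lm := Real.rpow_pos_of_pos ht _
    positivity
  have hT2 := T2M (p := p) ht hs K
  have hls0 : 0 < lsz p := Real.rpow_pos_of_pos ht _
  set T : ℝ := t * s ^ (1 / 4 : ℝ) with hTd
  set M : ℝ := s * 8 ^ K with hMd
  set q : ℝ := t / r with hqd
  set ls : ℝ := lsz p with hlsd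
  have hs4 : 0 < s ^ (1 / 4 : ℝ) := Real.rpow_pos_of_pos hs _
  have hT : 0 < T := mul_pos ht hs4
  have hM : 0 < M := by positivity
  have hth' : p.th s r = T * q ^ (-k3) := hth
  have hbe' : p.be s r = T * q ^ k8 := hbe
  have hcz' : cCz p s ≤ 2 * T * q ^ (-(2 : ℝ)) := hcz
  have hT2' : t ^ (2 : ℝ) * s ^ (3 / 2 : ℝ) * 8 ^ K = T ^ 2 * M := hT2
  have hCDp : p.CD = CD := rfl
  have hCD0 : 0 < CD := by linarith
  have thpos : 0 < p.th s r := H401.Num.th_pos ht hs hr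
  -- powers of `q`
  have qm : ∀ x y : ℝ, y ≤ x → q ^ x ≤ q ^ y := fun x y h =>
    Real.rpow_le_rpow_of_exponent_ge hq hq1 h
  have qp : ∀ x : ℝ, 0 < q ^ x := fun x => Real.rpow_pos_of_pos hq _
  have ls2 : ls ≤ q ^ (-(m / 2)) := hls.trans (qm _ _ (by linarith))
  have ls8 : ∀ x : ℝ, 9 * m ≤ x → ls * q ^ x ≤ q ^ (8 * m) := by
    intro x hx
    calc ls * q ^ x ≤ q ^ (-(m / 4)) * q ^ x := by gcongr
      _ = q ^ (-(m / 4) + x) := (Real.rpow_add hq _ _).symm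
      _ ≤ q ^ (8 * m) := qm _ _ (by linarith)
  have q0 : ∀ x : ℝ, 0 ≤ q ^ x := fun x => (qp x).le
  have thA : p.th s r ≤ 2 * CD * T * q ^ (-(4 * m)) :=
    n_cap hT hq hq1 hCD hth'.le (by linarith)
  have thB : p.th s r ≤ 2 * CD * T * q ^ (-(2 : ℝ)) :=
    n_cap hT hq hq1 hCD hth'.le (by linarith)
  have thC : cCz p s ≤ 2 * CD * T * q ^ (-(2 : ℝ)) := n_cap2 hT hq hCD hcz'
  have hmass : CD * (ls * s * 8 ^ K) ≤ 2 * CD * M * q ^ (-(m / 2)) := by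
    rw [show CD * (ls * s * 8 ^ K) = CD * M * ls by rw [hMd]; ring]
    exact n_mass hM.le hCD ls2 (q0 _)
  have hown : CD * (ls * (t ^ (2 : ℝ) * s ^ (3 / 2 : ℝ)) * 8 ^ K) ≤
      2 * CD * (T ^ 2 * M) * q ^ (-(m / 2)) := by
    rw [show CD * (ls * (t ^ (2 : ℝ) * s ^ (3 / 2 : ℝ)) * 8 ^ K) =
      CD * (T ^ 2 * M) * ls by rw [← hT2']; ring]
    exact n_mass (by positivity) hCD ls2 (q0 _)
  have hgap : CD * (ls * (t ^ (2 : ℝ) * q ^ (e0 / 10) * s ^ (3 / 2 : ℝ)) * 8 ^ K) ≤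
      2 * CD * (T ^ 2 * M) * q ^ (8 * m) := by
    rw [show CD * (ls * (t ^ (2 : ℝ) * q ^ (e0 / 10) * s ^ (3 / 2 : ℝ)) * 8 ^ K) =
      CD * (ls * (q ^ (e0 / 10))) * (T ^ 2 * M) by rw [← hT2']; ring]
    exact n_gap (ls8 _ (by linarith)) (by positivity) hCD (q0 _)
  have hsj : ∀ j : ℕ, 0 < cCz p s / 2 ^ (j - 1) := fun j => by positivity
  have hlight : ∀ j : ℕ, 4 ^ Lb * (CD * (ls * ((p.be s r * (cCz p s / 2 ^ (j - 1)) +
      p.be s r ^ 2) * s) * 8 ^ K)) ≤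
      2 * CD * (4 ^ Lb * (T * (cCz p s / 2 ^ (j - 1) + T) * M)) * q ^ (8 * m) := fun j =>
    t_light hT hM hq hq1 hk8 hCD0 hls0 (hsj j) hbe' (ls8 _ (by linarith)) hMd
  have hflow : ∀ j : ℕ, 4 ^ Lb * (CD * (ls * (p.th s r ^ 2 * q ^ e0 * s) * 8 ^ K)) ≤
      2 * CD * (4 ^ Lb * (T * (cCz p s / 2 ^ (j - 1) + T) * M)) * q ^ (8 * m) := fun j =>
    t_flow hT hM hq hCD0 (hsj j) hth' (ls8 _ (by linarith)) hMd
  have hcrude : 4 ^ Lb * (CD * (q ^ (-(10 : ℝ)) * s * 8 ^ K)) ≤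
      2 * CD * (4 ^ Lb * M) * q ^ (-(10 : ℝ)) := by
    rw [show 4 ^ Lb * (CD * (q ^ (-(10 : ℝ)) * s * 8 ^ K)) =
      CD * (4 ^ Lb * M) * q ^ (-(10 : ℝ)) by rw [hMd]; ring]
    have h5 : 0 ≤ CD * (4 ^ Lb * M) * q ^ (-(10 : ℝ)) := by positivity
    linarith
  have hw : 4 ^ Lb * (CD * (ls * s * 8 ^ K)) ≤ 2 * CD * (4 ^ Lb * M) * q ^ (-(m / 2)) := by
    rw [show 2 * CD * (4 ^ Lb * M) * q ^ (-(m / 2)) =
      4 ^ Lb * (2 * CD * M * q ^ (-(m / 2))) by ring]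
    exact mul_le_mul_of_nonneg_left hmass (by positivity)
  have m0 : 0 < CD * (ls * s * 8 ^ K) := by positivity
  have o0 : 0 < CD * (ls * (t ^ (2 : ℝ) * s ^ (3 / 2 : ℝ)) * 8 ^ K) := by
    have : 0 < t ^ (2 : ℝ) := Real.rpow_pos_of_pos ht _
    have : 0 < s ^ (3 / 2 : ℝ) := Real.rpow_pos_of_pos hs _
    positivity
  have c0' : 0 ≤ 4 ^ Lb * (CD * (q ^ (-(10 : ℝ)) * s * 8 ^ K)) := by positivity
  have key := H ι lb (p.lam s r) (fun x1 => GT u x1) (KT (p.lam s r) u) K Lb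
    ((cx K x).2.2, (cx K x).2.1, (cx K x).1) (iv K t0) (H677.cP o) A b C
    (sN (p.al U K) o K (cx K x)) QA QB QC T M q (p.th s r) (p.th s r) (cCz p s)
    (CD * (ls * (t ^ (2 : ℝ) * s ^ (3 / 2 : ℝ)) * 8 ^ K)) (CD * (ls * s * 8 ^ K))
    (CD * (ls * s * 8 ^ K)) (CD * (ls * s * 8 ^ K)) CD
    (CD * (ls * (t ^ (2 : ℝ) * q ^ (e0 / 10) * s ^ (3 / 2 : ℝ)) * 8 ^ K))
    (4 ^ Lb * (CD * (ls * s * 8 ^ K)))
    (4 ^ Lb * (CD * (q ^ (-(10 : ℝ)) * s * 8 ^ K)))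
    (fun j => 4 ^ Lb * (CD * (ls * ((p.be s r * (cCz p s / 2 ^ (j - 1)) + p.be s r ^ 2) * s) *
      8 ^ K)))
    (fun j => 4 ^ Lb * (CD * (ls * (p.th s r ^ 2 * q ^ e0 * s) * 8 ^ K)))
    hinj hlb (fun x1 => tr_T (H401.Num.lam_pos ht hs hr) K u x1) (fun i _ => cP_pl ho i)
    (fun i _ k _ => sN_sub ..) hT hM hq hq1 thpos thA thpos thB hcz0 thC o0 hown m0.le hmass
    hmass m0 hmass hCD (by linarith) hgap hw hlight (fun j _ => hflow j) c0' hcrude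
    capA capB capC fA b0 pB oB c0 pC oC gv gw gL (fun j _ => gF j)
    (fun j j' _ _ => gκ j j')
  calc √ez * _ ≤ √ez * (C₁ * (T * M) * q ^ m) := mul_le_mul_of_nonneg_left key (Real.sqrt_nonneg _)
    _ = _ := price_eq ht hs hr K

end

end Vale.Agent.P141.H775
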