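import Vale.Agent.P141.H579.MkCap
import Vale.Agent.P141.H64.ZFam
import Vale.Agent.P141.H576.ZGap
import Vale.Agent.P141.H622.ZMass
import Vale.Agent.P141.H672.ZFlow
import Vale.Agent.P141.H775.TileZ

/-!
# P141, line (A), gap part: `CSt NZ` from the two last fields
-/

namespace Vale.Agent.P141.H775

open Vale.Agent.P141.H331 Vale.Agent.P141.H401

/-- **The gap part** from the light pair and the crude pair. -/
theorem cst_NZ_of (hL : MkT ZLight) (hC : MkT ZCrude) : CSt H401.NZ :=
  cst_NZ H579.mkT_ZCap H64.mkT_ZFam H576.mkT_gap H622.mkT_ZMass hL H672.mkT_ZFlow hC tileZ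

end Vale.Agent.P141.H775
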